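import Mathlib
import Vale.Agent.P227.Shared

/-! # P227: log-Brunn–Minkowski for bodies sharing `n - 2` commuting linear reflections -/

open MeasureTheory
open scoped RealInnerProductSpace

namespace Vale.Agent.Results.P227.SharedReflections

/-- Origin-symmetric compact convex sets in `ℝ^n`, both invariant under the linear reflections
`x ↦ x - 2 x_k b_k` of one basis `b` for all indices `k` but two (`i`, `j`), satisfy the logarithmic
Brunn–Minkowski inequality. -/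
theorem result (n : ℕ) (b : Module.Basis (Fin n) ℝ (EuclideanSpace ℝ (Fin n))) (i j : Fin n)
    (hij : i ≠ j) (K L : Set (EuclideanSpace ℝ (Fin n)))
    (hKc : IsCompact K) (hKv : Convex ℝ K) (hKs : ∀ x ∈ K, -x ∈ K)
    (hLc : IsCompact L) (hLv : Convex ℝ L) (hLs : ∀ x ∈ L, -x ∈ L)
    (hKr : ∀ k, k ≠ i → k ≠ j → ∀ x ∈ K, x - (2 * b.repr x k) • b k ∈ K)
    (hLr : ∀ k, k ≠ i → k ≠ j → ∀ x ∈ L, x - (2 * b.repr x k) • b k ∈ L)
    (lam : ℝ) (h0 : 0 ≤ lam) (h1 : lam ≤ 1) :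
    volume K ^ (1 - lam) * volume L ^ lam ≤
      volume {x : EuclideanSpace ℝ (Fin n) | ∀ u ∈ Metric.sphere (0 : EuclideanSpace ℝ (Fin n)) 1,
        ⟪u, x⟫ ≤ sSup ((fun y => ⟪u, y⟫) '' K) ^ (1 - lam) *
          sSup ((fun y => ⟪u, y⟫) '' L) ^ lam} := by
  refine (Vale.Agent.P227.shared b hij ⟨hKc, hKv, hKs⟩ ⟨hLc, hLv, hLs⟩ hKr hLr h0 h1).trans
    (measure_mono fun x hx u _ => ?_)
  exact hx (innerₛₗ ℝ u)

end Vale.Agent.Results.P227.SharedReflections
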