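import Vale.Agent.P227.Local.Bodies

/-! # P227: the local log-Brunn-Minkowski inequality at unconditional polytopes

First against origin-symmetric polytopes, with Wulff bodies over all directions, then against
perturbations of the offsets over a finite set of supporting directions. -/

open MeasureTheory Filter Topology Function
open scoped Pointwise
open Vale.Agent.P227.Local

namespace Vale.Agent.Results.P227.UnconditionalLocal

theorem result :
    (∀ (n : ℕ), 2 ≤ n → ∀ (A B : Finset (Fin n → ℝ)) (hA : A.Nonempty) (hB : B.Nonempty),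
      (∀ x ∈ A, ∀ k, update x k (-x k) ∈ convexHull ℝ (A : Set (Fin n → ℝ))) →
      (∀ u : Fin n → ℝ, u ≠ 0 → ∃ x ∈ A, 0 < ∑ k, u k * x k) →
      (∀ x ∈ B, -x ∈ convexHull ℝ (B : Set (Fin n → ℝ))) →
      ∀ (lam : ℝ), 0 ≤ lam → lam ≤ 1 → ∀ η : ℝ, 0 < η →
      ∀ᶠ t in 𝓝[Set.Ici 0] (0 : ℝ),
        (volume (convexHull ℝ (A : Set (Fin n → ℝ)))).toReal ^ (1 - lam)
            * (volume (convexHull ℝ (A : Set (Fin n → ℝ))
                + t • convexHull ℝ (B : Set (Fin n → ℝ)))).toReal ^ lam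
          ≤ (volume {x : Fin n → ℝ | ∀ u : Fin n → ℝ, ∑ k, u k * x k ≤
              (A.sup' hA fun p => ∑ k, u k * p k) ^ (1 - lam)
                * ((A.sup' hA fun p => ∑ k, u k * p k)
                  + t * (B.sup' hB fun p => ∑ k, u k * p k)) ^ lam}).toReal + η * t ^ 2) ∧
    (∀ (ι : Type) [Fintype ι] (n : ℕ), 2 ≤ n → ∀ (v : ι → Fin n → ℝ) (a g : ι → ℝ),
      (∀ i, 0 < a i) →
      (∀ i k, ∃ j, v j = update (v i) k (-v i k) ∧ a j = a i) →
      Bornology.IsBounded {x : Fin n → ℝ | ∀ i, ∑ k, v i k * x k ≤ a i} →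
      (∀ i, ∃ x : Fin n → ℝ, (∀ j, ∑ k, v j k * x k ≤ a j) ∧ ∑ k, v i k * x k = a i) →
      (∀ i j (r : ℝ), 0 < r → v j = r • v i → j = i) →
      (∀ i j, v j = -v i → g j = g i) →
      (∀ i j l (p q : ℝ), 0 < p → 0 < q → v l = p • v j + q • v i →
        a l = p * a j + q * a i → g l ≤ p * g j + q * g i) →
      ∀ (lam : ℝ), 0 ≤ lam → lam ≤ 1 → ∀ η : ℝ, 0 < η →
      ∀ᶠ t in 𝓝[Set.Ici 0] (0 : ℝ),
        (volume {x : Fin n → ℝ | ∀ i, ∑ k, v i k * x k ≤ a i}).toReal ^ (1 - lam)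
            * (volume {x : Fin n → ℝ | ∀ i, ∑ k, v i k * x k ≤ a i + t * g i}).toReal ^ lam
          ≤ (volume {x : Fin n → ℝ | ∀ i,
              ∑ k, v i k * x k ≤ a i ^ (1 - lam) * (a i + t * g i) ^ lam}).toReal + η * t ^ 2) :=
  ⟨fun _ hn A B hA hB hf hi hs lam h0 h1 η hη =>
      local_bodies hn A B hA hB hf hi hs lam h0 h1 η hη,
    fun _ _ _ hn v a g ha hf hb ht hd he hc lam h0 h1 η hη =>
      local_finite hn v a g ha hf hb ht hd he hc lam h0 h1 η hη⟩

end Vale.Agent.Results.P227.UnconditionalLocal
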